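import Vale.Agent.P181.MR.Defs

set_option autoImplicit false

/-!
# P181, MR, block NUM: the final inequality
-/

namespace Vale.Agent.P181.MR.H761

/-- a binomial coefficient -/
theorem choose_le (a n t : ℕ) (ha : 11 ≤ a) (hn : 16 * a ≤ n) (ht : 25 * t ≤ 3 * (a * n)) :
    ((t + n - 1).choose (n - 1) : ℝ) ≤ (a : ℝ) ^ n := by
  obtain ⟨k, rfl⟩ : ∃ k, n = k + 1 := ⟨n - 1, by omega⟩
  have e1 : t + (k + 1) - 1 = t + k := by omega
  have e2 : k + 1 - 1 = k := by omega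
  rw [e1, e2]
  have ha' : (11 : ℝ) ≤ a := by exact_mod_cast ha
  have hk : 16 * (a : ℝ) ≤ (k : ℝ) + 1 := by exact_mod_cast hn
  have ht' : 25 * (t : ℝ) ≤ 3 * ((a : ℝ) * ((k : ℝ) + 1)) := by exact_mod_cast ht
  have hk1 : (1 : ℝ) ≤ k := by nlinarith
  have h1 : ((t + k).choose k : ℝ) ≤ ((t + k : ℕ) : ℝ) ^ k / (k.factorial : ℝ) :=
    Nat.choose_le_pow_div k (t + k)
  have h2 : (3 * ((t : ℝ) + k) / a) ^ k / (k.factorial : ℝ) ≤ Real.exp (3 * ((t : ℝ) + k) / a) :=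
    Real.pow_div_factorial_le_exp _ (by positivity) k
  have h3 : 3 * ((t : ℝ) + k) / a ≤ k := by
    rw [div_le_iff₀ (by linarith)]
    nlinarith
  have h4 : ((t + k : ℕ) : ℝ) ^ k / (k.factorial : ℝ) =
      ((3 * ((t : ℝ) + k) / a) ^ k / (k.factorial : ℝ)) * ((a : ℝ) / 3) ^ k := by
    rw [div_mul_eq_mul_div, ← mul_pow]
    have : 3 * ((t : ℝ) + k) / a * (a / 3) = ((t + k : ℕ) : ℝ) := by
      push_cast
      field_simp
    rw [this]
  have h5 : Real.exp (3 * ((t : ℝ) + k) / a) ≤ 3 ^ k := by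
    calc Real.exp (3 * ((t : ℝ) + k) / a) ≤ Real.exp (k : ℝ) := Real.exp_le_exp.2 h3
      _ = (Real.exp 1) ^ k := by rw [← Real.exp_nat_mul, mul_one]
      _ ≤ 3 ^ k := pow_le_pow_left₀ (Real.exp_pos 1).le
          (by have := Real.exp_one_lt_d9; linarith) k
  calc ((t + k).choose k : ℝ) ≤ ((t + k : ℕ) : ℝ) ^ k / (k.factorial : ℝ) := h1
    _ = ((3 * ((t : ℝ) + k) / a) ^ k / (k.factorial : ℝ)) * ((a : ℝ) / 3) ^ k := h4
    _ ≤ 3 ^ k * ((a : ℝ) / 3) ^ k :=
        mul_le_mul_of_nonneg_right (h2.trans h5) (by positivity)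
    _ = (a : ℝ) ^ k := by
        rw [← mul_pow]
        congr 1
        ring
    _ ≤ (a : ℝ) ^ (k + 1) := pow_le_pow_right₀ (by linarith) (by omega)

theorem fac_le (X n d ν : ℕ) (hX : 2 ≤ X) (h1 : d * ν ≤ 3 * n) (h2 : ν ≤ X ^ 6) :
    (ν.factorial : ℝ) ^ d ≤ (X : ℝ) ^ (18 * n) := by
  have h3 : ν.factorial ^ d ≤ X ^ (18 * n) := by
    calc ν.factorial ^ d ≤ (ν ^ ν) ^ d := Nat.pow_le_pow_left (Nat.factorial_le_pow ν) d
      _ ≤ ((X ^ 6) ^ ν) ^ d := Nat.pow_le_pow_left (Nat.pow_le_pow_left h2 ν) d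
      _ = X ^ (6 * (d * ν)) := by
          rw [← pow_mul, ← pow_mul]
          congr 1
          ring
      _ ≤ X ^ (18 * n) := Nat.pow_le_pow_right (by omega) (by omega)
  exact_mod_cast h3

theorem num_aux : ∃ a₀ : ℕ, ∀ (a b X R n d ν t n₀ : ℕ), a₀ ≤ a → 2 ≤ X → X ^ 40 ≤ a →
  200 * a ≤ b → b ≤ X * a → 2 ≤ R → R ≤ X ^ 2 → b ≤ 12 * n → 8 * n ≤ b → d * ν ≤ 3 * n →
  ν ≤ X ^ 6 → 100 * t ≤ a * b → a ^ 2 ≤ 2 * X * n₀ →
  ((a * b + 1 : ℕ) : ℝ) ^ a * 2 ^ (R * a) * ((t + n - 1).choose (n - 1) : ℝ) *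
    (ν.factorial : ℝ) ^ d ≤ (1 + (n₀ : ℝ) / n) ^ (R * (n - a)) := by
  refine ⟨11, ?_⟩
  intro a b X R n d ν t n₀ ha hX hXa hab hbX hR hRX hbn hnb hdν hν ht hn₀
  have hn16 : 16 * a ≤ n := by omega
  have ht2 : 25 * t ≤ 3 * (a * n) := by
    have : a * b ≤ a * (12 * n) := Nat.mul_le_mul_left a hbn
    have e : a * (12 * n) = 12 * (a * n) := by ring
    omega
  -- real versions
  have haR : (11 : ℝ) ≤ a := by exact_mod_cast ha
  have hXR : (2 : ℝ) ≤ X := by exact_mod_cast hX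
  have hXaR : (X : ℝ) ^ 40 ≤ a := by exact_mod_cast hXa
  have habR : 200 * (a : ℝ) ≤ b := by exact_mod_cast hab
  have hbXR : (b : ℝ) ≤ X * a := by exact_mod_cast hbX
  have hRR : (2 : ℝ) ≤ R := by exact_mod_cast hR
  have hbnR : (b : ℝ) ≤ 12 * n := by exact_mod_cast hbn
  have hnbR : 8 * (n : ℝ) ≤ b := by exact_mod_cast hnb
  have hn₀R : (a : ℝ) ^ 2 ≤ 2 * X * n₀ := by exact_mod_cast hn₀
  have ha0 : (0 : ℝ) < a := by linarith
  have hX0 : (0 : ℝ) < X := by linarith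
  have hn0 : (0 : ℝ) < n := by linarith
  have han : (a : ℝ) ≤ 6 / 100 * n := by linarith
  set L : ℝ := Real.log a with hL
  set x : ℝ := Real.log X with hx
  have hLx : 40 * x ≤ L := by
    have h := Real.log_le_log (by positivity) hXaR
    rw [Real.log_pow] at h
    exact_mod_cast h
  have hx0 : 0 ≤ x := Real.log_nonneg (by linarith)
  have hL0 : 0 ≤ L := by linarith
  have hl2 : Real.log 2 ≤ 7 / 10 := by
    have := Real.log_two_lt_d9
    linarith
  have hl2' : 69 / 100 ≤ Real.log 2 := by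
    have := Real.log_two_gt_d9
    linarith
  -- the factors
  have f1 : ((a * b + 1 : ℕ) : ℝ) ^ a ≤ Real.exp (a * (Real.log 2 + x + 2 * L)) := by
    have h1 : ((a * b + 1 : ℕ) : ℝ) ≤ 2 * X * (a : ℝ) ^ 2 := by
      push_cast
      have h2 : (a : ℝ) * b ≤ X * (a : ℝ) ^ 2 := by nlinarith
      have h3 : (1 : ℝ) ≤ X * (a : ℝ) ^ 2 := by nlinarith
      linarith
    have h4 : 2 * X * (a : ℝ) ^ 2 = Real.exp (Real.log 2 + x + 2 * L) := by
      rw [Real.exp_add, Real.exp_add, Real.exp_log (by norm_num), Real.exp_log hX0, two_mul L,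
        Real.exp_add, Real.exp_log ha0]
      ring
    calc ((a * b + 1 : ℕ) : ℝ) ^ a ≤ (2 * X * (a : ℝ) ^ 2) ^ a :=
          pow_le_pow_left₀ (by positivity) h1 a
      _ = Real.exp (a * (Real.log 2 + x + 2 * L)) := by rw [h4, ← Real.exp_nat_mul]
  have f2 : (2 : ℝ) ^ (R * a) = Real.exp (R * a * Real.log 2) := by
    rw [← Real.exp_log (show (0 : ℝ) < 2 by norm_num), ← Real.exp_nat_mul,
      Real.exp_log (by norm_num)]
    push_cast
    ring_nf
  have f3 : ((t + n - 1).choose (n - 1) : ℝ) ≤ Real.exp (n * L) := by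
    have h := choose_le a n t ha hn16 ht2
    have e : (a : ℝ) ^ n = Real.exp (n * L) := by
      rw [Real.exp_nat_mul, Real.exp_log ha0]
    rw [← e]
    exact h
  have f4 : (ν.factorial : ℝ) ^ d ≤ Real.exp (18 * n * x) := by
    have h := fac_le X n d ν hX hdν hν
    have e : (X : ℝ) ^ (18 * n) = Real.exp (18 * n * x) := by
      have : (18 * (n : ℝ) * x) = ((18 * n : ℕ) : ℝ) * x := by push_cast; ring
      rw [this, Real.exp_nat_mul, Real.exp_log hX0]
    rw [← e]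
    exact h
  have f5 : Real.exp (R * (n - a) * (2 * Real.log 2 + L - 2 * x)) ≤
      (1 + (n₀ : ℝ) / n) ^ (R * (n - a)) := by
    have h1 : 4 * (a : ℝ) / (X : ℝ) ^ 2 ≤ 1 + (n₀ : ℝ) / n := by
      have h2 : 4 * (a : ℝ) / (X : ℝ) ^ 2 ≤ (n₀ : ℝ) / n := by
        rw [div_le_div_iff₀ (by positivity) hn0]
        have h3 : 8 * (n : ℝ) ≤ X * a := hnbR.trans hbXR
        nlinarith [mul_le_mul_of_nonneg_left hn₀R hX0.le, mul_le_mul_of_nonneg_left h3 ha0.le]
      linarith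
    have h4 : 4 * (a : ℝ) / (X : ℝ) ^ 2 = Real.exp (2 * Real.log 2 + L - 2 * x) := by
      rw [Real.exp_sub, Real.exp_add, Real.exp_log ha0, two_mul (Real.log 2), Real.exp_add,
        Real.exp_log (by norm_num), two_mul x, Real.exp_add, Real.exp_log hX0]
      ring
    have h5 : ((R * (n - a) : ℕ) : ℝ) = R * (n - a) := by
      rw [Nat.cast_mul, Nat.cast_sub (by omega)]
    calc Real.exp (R * (n - a) * (2 * Real.log 2 + L - 2 * x))
        = Real.exp (((R * (n - a) : ℕ) : ℝ) * (2 * Real.log 2 + L - 2 * x)) := by rw [h5]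
      _ = (4 * (a : ℝ) / (X : ℝ) ^ 2) ^ (R * (n - a)) := by rw [Real.exp_nat_mul, h4]
      _ ≤ (1 + (n₀ : ℝ) / n) ^ (R * (n - a)) := pow_le_pow_left₀ (by positivity) h1 _
  have key : a * (Real.log 2 + x + 2 * L) + R * a * Real.log 2 + n * L + 18 * n * x ≤
      R * (n - a) * (2 * Real.log 2 + L - 2 * x) := by
    have g1 : a * (Real.log 2 + x + 2 * L) ≤ 6 / 100 * n * (7 / 10 + 2025 / 1000 * L) :=
      mul_le_mul han (by linarith) (by positivity) (by positivity)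
    have g2 : R * a * Real.log 2 ≤ R * (6 / 100 * n) * (7 / 10) :=
      mul_le_mul (mul_le_mul_of_nonneg_left han (by positivity)) hl2 (by positivity)
        (by positivity)
    have g3 : 18 * n * x ≤ 18 * n * (L / 40) :=
      mul_le_mul_of_nonneg_left (by linarith) (by positivity)
    have g4 : R * (94 / 100 * n) * (138 / 100 + 95 / 100 * L) ≤
        R * (n - a) * (2 * Real.log 2 + L - 2 * x) := by
      refine mul_le_mul (mul_le_mul_of_nonneg_left (by linarith) (by positivity)) (by linarith)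
        (by positivity) ?_
      exact mul_nonneg (by positivity) (by linarith)
    have g5 : 6 / 100 * n * (7 / 10 + 2025 / 1000 * L) + R * (6 / 100 * n) * (7 / 10) + n * L +
        18 * n * (L / 40) ≤ R * (94 / 100 * n) * (138 / 100 + 95 / 100 * L) := by
      have g6 : 0 ≤ n * ((R - 2) * (125 / 100 + 893 / 1000 * L)) := by
        have : (0 : ℝ) ≤ R - 2 := by linarith
        positivity
      have g7 : 0 ≤ n * L := by positivity
      nlinarith
    linarith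
  calc ((a * b + 1 : ℕ) : ℝ) ^ a * 2 ^ (R * a) * ((t + n - 1).choose (n - 1) : ℝ) *
        (ν.factorial : ℝ) ^ d
      ≤ Real.exp (a * (Real.log 2 + x + 2 * L)) * Real.exp (R * a * Real.log 2) *
        Real.exp (n * L) * Real.exp (18 * n * x) := by
        rw [f2]
        gcongr
    _ = Real.exp (a * (Real.log 2 + x + 2 * L) + R * a * Real.log 2 + n * L + 18 * n * x) := by
        rw [Real.exp_add, Real.exp_add, Real.exp_add]
    _ ≤ Real.exp (R * (n - a) * (2 * Real.log 2 + L - 2 * x)) := Real.exp_le_exp.2 key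
    _ ≤ _ := f5

theorem numM : NumM := num_aux

end Vale.Agent.P181.MR.H761
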